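import Vale.Agent.P354MU.Wit
import Vale.Agent.P354M0.Defs

/-! The scalar package MU. -/

open Set Filter Topology
open scoped ContDiff

namespace Vale.Agent.P354MU

open Vale.Agent.P354BF (De rp)
open Vale.Agent.P354XH
open Vale.Agent.P354M0 (Mu MU)

theorem hp_bd {n : ℕ} {F : Fm} (hF : HP (2 * n) F) (M0 a0 x y : ℝ) : ∃ C, 0 < C ∧ ∀ M a,
    |M - M0| ≤ 1 → |a - a0| ≤ 1 → ∀ r ∈ Icc x y, ∀ om m,
      |F M a r om m| ≤ C * (om ^ 2 + m ^ 2) ^ n := by
  obtain ⟨C, hC, H⟩ := upper ((isCompact_Icc (a := ((M0 - 1, a0 - 1, x) : ℝ × ℝ × ℝ))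
    (b := (M0 + 1, a0 + 1, y))).prod Ci_compact) hF.cont.continuousOn
  refine ⟨C, hC, fun M a h1 h2 r hr om m => ?_⟩
  obtain ⟨t, o, k, ht, hu, rfl, rfl⟩ := polar om m
  have := abs_le.mp h1; have := abs_le.mp h2
  have b := H ((M, a, r), o, k) ⟨⟨⟨by linarith, by linarith, hr.1⟩,
    ⟨by linarith, by linarith, hr.2⟩⟩, hu⟩
  rw [hF.hom, show (t * o) ^ 2 + (t * k) ^ 2 = t ^ 2 by linear_combination t ^ 2 * hu, ← pow_mul,
    abs_mul, abs_of_nonneg (pow_nonneg ht _), mul_comm]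
  exact mul_le_mul_of_nonneg_right b (pow_nonneg ht _)

theorem room {b ch h : Fm} {M a r om m x L c k : ℝ} (hc : 0 < c) (hk : 2 * c ≤ k)
    (H0 : ∀ L, el a om m ≤ L → 0 ≤ Bk b ch h M a r om m x L)
    (H3 : k * ((om ^ 2 + m ^ 2) * (h M a r om m - dr b M a r om m)) ≤
      Bk b ch h M a r om m x (el a om m)) (hL : el a om m - c * (om ^ 2 + m ^ 2) ≤ L) :
    ∃ L0, el a om m ≤ L0 ∧ L ≤ L0 ∧ Bk b ch h M a r om m x L0 ≤ 2 * Bk b ch h M a r om m x L := by
  rcases le_total (el a om m) L with h1 | h1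
  · exact ⟨L, h1, le_rfl, by linarith [H0 L h1]⟩
  · refine ⟨_, le_rfl, h1, ?_⟩
    have e : Bk b ch h M a r om m x L = Bk b ch h M a r om m x (el a om m) -
        (h M a r om m - dr b M a r om m) * (el a om m - L) := by unfold Bk; ring
    have b0 := H0 _ le_rfl
    rw [e]
    generalize h M a r om m - dr b M a r om m = g at H3
    rcases le_total g 0 with h2 | h2
    · linarith [mul_nonneg (neg_nonneg.mpr h2) (sub_nonneg.mpr h1)]
    · linarith [mul_le_mul_of_nonneg_left (show el a om m - L ≤ c * (om ^ 2 + m ^ 2) by linarith) h2,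
        mul_le_mul_of_nonneg_right hk (show 0 ≤ (om ^ 2 + m ^ 2) * g by positivity)]

theorem dv {c k ρ r X : ℝ} {j : ℕ} (hj : j ≤ 6) (h0 : 0 < ρ) (h1 : ρ ≤ 1) (hr : ρ ≤ r) (hc : 0 < c)
    (hk : c ≤ k * ρ ^ 6) (hX : 0 ≤ X) : c * (X / r ^ j) ≤ k * X := by
  have r0 : 0 < r := h0.trans_le hr
  have k0 : 0 ≤ k := nonneg_of_mul_nonneg_left (hc.le.trans hk) (by positivity)
  rw [mul_div_assoc', div_le_iff₀ (by positivity), mul_right_comm]
  refine mul_le_mul_of_nonneg_right (hk.trans (mul_le_mul_of_nonneg_left ?_ k0)) hX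
  exact (pow_le_pow_of_le_one h0.le h1 hj).trans (pow_le_pow_left₀ h0.le hr j)

theorem fin {D B S T k t c l Y : ℝ} (hD : 0 < D) (e : D * B = S * T) (h1 : D * (t * Y) ≤ T)
    (h2 : k * l ≤ S) (h3 : c ≤ k * t) (hk : 0 < k) (ht : 0 < t) (hl : 0 ≤ l) (hY : 0 ≤ Y) :
    c * l * Y ≤ B := by
  refine le_of_mul_le_mul_left ?_ hD
  calc D * (c * l * Y) ≤ D * (k * t * l * Y) := by gcongr
    _ = k * l * (D * (t * Y)) := by ring
    _ ≤ S * T := mul_le_mul h2 h1 (by positivity) (le_trans (by positivity) h2)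
    _ = _ := e.symm

theorem mu : MU := by
  intro M0 a0 rm ha h f hf
  obtain ⟨w, sw, hw⟩ := ex_w
  have hM := M_pos h
  have hrp := rp_le h
  have i0 : 0 < 2 / M0 := by positivity
  obtain ⟨R1, hR1⟩ : ∃ R1, R1 = 300 * M0 + 2 / M0 + 3 := ⟨_, rfl⟩
  obtain ⟨δ1, hδ1, d1, d2⟩ : ∃ δ1, 0 < δ1 ∧ δ1 ≤ (M0 - |a0|) / 2 ∧ δ1 ≤ 1 :=
    ⟨min ((M0 - |a0|) / 2) 1, lt_min (by linarith) one_pos, min_le_left _ _, min_le_right _ _⟩
  have big : ∀ M a, |M - M0| < δ1 → |a - a0| < δ1 → M0 / 2 ≤ M ∧ ∀ r, R1 - 2 ≤ r → Big M a r :=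
    fun M a h1 h2 => by
      have b1 := abs_lt.mp h1
      have b2 := abs_sub_abs_le_abs_sub a a0
      have b3 := abs_nonneg a0
      have b4 : M0 / 2 ≤ M := by linarith
      refine ⟨b4, fun r hr => ⟨by linarith, (sq_lt (by linarith)).le, by linarith, ?_⟩⟩
      calc (1 : ℝ) = M0 / 2 * (2 / M0) := by field_simp
        _ ≤ M * r := by gcongr <;> linarith
  have z0 : ∀ x : ℝ, ∀ {d : ℝ}, 0 < d → |x - x| < d := fun x d hd => by simpa using hd
  have hF : Far M0 a0 (be w) (gF w) f R1 (R1 + 1) := far_ok sw hw hf.sm.continuous (by linarith)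
    (by linarith) (fun r hr => hf.adm r (hf.hi.le.trans hr)) (big M0 a0 (z0 _ hδ1) (z0 _ hδ1)).2
  obtain ⟨N, b, ch, hh, mu, S, r0, ra, rb, k, δ, O, O2, hN, O3⟩ := sym3 ha h hF
  obtain ⟨o1, o2, o3, o4, o5⟩ := O.ord
  have hk := O.cpos
  have hδ := O.dpos
  obtain ⟨s, hs⟩ := O.hS
  obtain ⟨CS, hCS, bS⟩ := hp_bd (n := N + 1) (F := fun _ _ _ => S)
    ⟨fun i _ => s i, fun _ => contDiff_const, fun _ _ _ om m => hs om m⟩ 0 0 0 0
  obtain ⟨Cb, hCb, bb⟩ := hp_bd (n := N + 1) O.hb M0 a0 r0 (R1 + 1)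
  obtain ⟨ρ, hρ, ρ1, ρ2⟩ : ∃ ρ, 0 < ρ ∧ ρ ≤ 1 ∧ ρ ≤ M0 :=
    ⟨min 1 M0, lt_min one_pos hM, min_le_left _ _, min_le_right _ _⟩
  obtain ⟨γ, hγ, γ1, γ2⟩ : ∃ γ, 0 < γ ∧ γ ≤ 1 ∧ γ ≤ (ra - rp M0 a0) / 2 :=
    ⟨min 1 ((ra - rp M0 a0) / 2), lt_min one_pos (by linarith), min_le_left _ _, min_le_right _ _⟩
  obtain ⟨t, ht, t1, t2⟩ : ∃ t, 0 < t ∧ t ≤ 1 / 100 ∧ t ≤ M0 / 40 :=
    ⟨min (1 / 100) (M0 / 40), lt_min (by norm_num) (by linarith), min_le_left _ _, min_le_right _ _⟩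
  obtain ⟨c, hc, c1, c2, c3, c4⟩ : ∃ c, 0 < c ∧ c ≤ 1 / 16 ∧ c ≤ k / 2 * γ ^ 2 * ρ ^ 6 ∧
      c ≤ k * t ∧ c ≤ k / Cb :=
    ⟨min (min (1 / 16) (k / 2 * γ ^ 2 * ρ ^ 6)) (min (k * t) (k / Cb)),
      lt_min (lt_min (by norm_num) (by positivity)) (lt_min (by positivity) (by positivity)),
      (min_le_left _ _).trans (min_le_left _ _), (min_le_left _ _).trans (min_le_right _ _),
      (min_le_right _ _).trans (min_le_left _ _), (min_le_right _ _).trans (min_le_right _ _)⟩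
  have c5 : c ≤ k / 2 * ρ ^ 6 := c2.trans (by
    have := mul_le_mul_of_nonneg_left (pow_le_one₀ (n := 2) hγ.le γ1) (half_pos hk).le
    gcongr; linarith)
  have c6 : 2 * c ≤ k := by
    linarith [mul_le_mul_of_nonneg_left (pow_le_one₀ (n := 6) hρ.le ρ1) (half_pos hk).le]
  have c7 : Cb * c ≤ k := by rw [mul_comm]; exact (le_div_iff₀ hCb).mp c4
  have mar : ∀ {a om m L : ℝ}, el a om m - c * (om ^ 2 + m ^ 2) ≤ L →
      el a om m - (om ^ 2 + m ^ 2) / 16 ≤ L := fun {a om m L} hL => by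
    linarith [mul_le_mul_of_nonneg_right c1 (show 0 ≤ om ^ 2 + m ^ 2 by positivity)]
  have rm' : ∀ {M a om m r x L : ℝ}, |M - M0| < δ → |a - a0| < δ → r ∈ Icc r0 (R1 + 1) →
      el a om m - c * (om ^ 2 + m ^ 2) ≤ L → ∃ L0, el a om m ≤ L0 ∧ L ≤ L0 ∧
        Bk b ch hh M a r om m x L0 ≤ 2 * Bk b ch hh M a r om m x L :=
    fun {M a om m r x L} h1 h2 hr hL => room hc c6 (fun L' hL' => le_trans (by
      have := (el_nonneg a om m).trans hL'
      positivity) (O2 M a h1 h2 om m r hr x L' hL')) (O3 M a h1 h2 om m r hr x _ le_rfl) hL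
  refine ⟨N + 1, b, ch, hh, max r0 rm, (rp M0 a0 + ra) / 2, rb + 1, R1 + 1, c, 2 * CS, min δ δ1,
    le_max_right _ _, by omega, O.hb, O.hch, O.hh, hc, by linarith, lt_min hδ hδ1,
    ⟨lt_max_of_lt_left o1, max_lt o2 hf.hi, by linarith, by linarith, by linarith, by linarith⟩,
    fun M a h1 h2 om m r hr x L hL => ?_, fun M a h1 h2 om m r hr hq x L hL => ?_,
    fun M a h1 h2 om m r hr hD x L hL => ?_, fun M a h1 h2 om m r hr x L hL => ?_,
    fun r hr om m hu => ?_⟩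
  · obtain ⟨h1, h1'⟩ := lt_min_iff.mp h1
    obtain ⟨h2, h2'⟩ := lt_min_iff.mp h2
    have hr0 := (le_max_left _ _).trans hr
    rcases le_total r (R1 + 1) with h3 | h3
    · obtain ⟨L0, l1, -, l3⟩ := rm' (x := x) h1 h2 ⟨hr0, h3⟩ hL
      have b1 := O2 M a h1 h2 om m r ⟨hr0, h3⟩ x L0 l1
      have b2 := dv (j := 4) (by norm_num) hρ ρ1 (show ρ ≤ r by linarith) hc c5
        (sq_nonneg (De M a r * x - K a r om m))
      have b3 := dv (j := 6) le_rfl hρ ρ1 (show ρ ≤ r by linarith) hc c5 (sq_nonneg (ka M a r om m))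
      have b4 := mul_le_mul_of_nonneg_left (add_le_add b2 b3)
        (show 0 ≤ (om ^ 2 + m ^ 2) ^ (N + 1) by positivity)
      have b5 : 0 ≤ k * (om ^ 2 + m ^ 2) ^ N * (ka M a r om m ^ 2 * (x ^ 2 + L0)) := by
        have := (el_nonneg a om m).trans l1
        positivity
      rw [pow_succ] at b4 ⊢
      linarith
    · obtain ⟨m1, B⟩ := big M a h1' h2'
      have B := B r (by linarith)
      have r1 := B.r1
      have hD : 0 < De M a r := lt_of_lt_of_le (by positivity) B.D1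
      exact fin (by positivity) (far_Bk hw (fun r hr => O.far M a r om m hr) (by linarith) r1 x L)
        (far1 B (mar hL) ht.le (by linarith) (by linarith) _) (O.low om m) c3 hk ht (by positivity)
        (by positivity)
  · obtain ⟨h1, h1'⟩ := lt_min_iff.mp h1
    obtain ⟨h2, h2'⟩ := lt_min_iff.mp h2
    have hr0 := (le_max_left _ _).trans hr
    have l0 : 0 ≤ x ^ 2 + (om ^ 2 + m ^ 2) + L := by
      linarith [mar hL, el_nonneg a om m, sq_nonneg x, sq_nonneg om, sq_nonneg m]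
    rcases le_total r (R1 + 1) with h3 | h3
    · obtain ⟨L0, l1, l2, l3⟩ := rm' (x := x) h1 h2 ⟨hr0, h3⟩ hL
      obtain ⟨rs, hrs, b1⟩ := O.bulk M a h1 h2 om m
      have b1 := b1 r ⟨hr0, h3⟩ x L0 l1
      have b2 := dv (j := 1) (by norm_num) hρ ρ1 (show ρ ≤ r by linarith) hc c2 l0
      have b3 : γ ^ 2 ≤ (r - rs) ^ 2 := by
        rw [← sq_abs (r - rs)]
        refine pow_le_pow_left₀ hγ.le ?_ 2
        rcases hq with hq | hq
        · linarith [neg_abs_le (r - rs), hrs.1]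
        · linarith [le_abs_self (r - rs), hrs.2]
      have b4 := mul_le_mul b3 (show x ^ 2 + (om ^ 2 + m ^ 2) + L ≤ x ^ 2 + (om ^ 2 + m ^ 2) + L0 by
        linarith) l0 (sq_nonneg _)
      have p : 0 ≤ (om ^ 2 + m ^ 2) ^ (N + 1) := by positivity
      have b5 := mul_le_mul_of_nonneg_left b2 p
      have b6 := mul_le_mul_of_nonneg_left b4 (mul_nonneg hk.le p)
      have b7 := mul_nonneg (mul_nonneg hk.le p) (sq_nonneg (De M a r * x - K a r om m))
      rw [pow_one] at b5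
      linarith
    · obtain ⟨m1, B⟩ := big M a h1' h2'
      have B := B r (by linarith)
      have r1 := B.r1
      have hD : 0 < De M a r := lt_of_lt_of_le (by positivity) B.D1
      exact fin (by positivity) (far_Bk hw (fun r hr => O.far M a r om m hr) (by linarith) r1 x L)
        (far2 B (mar hL) x) (O.low om m) (c3.trans (mul_le_mul_of_nonneg_left t1 hk.le)) hk
        (by norm_num) (by positivity) (by positivity)
  · obtain ⟨h1, h1'⟩ := lt_min_iff.mp h1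
    obtain ⟨h2, h2'⟩ := lt_min_iff.mp h2
    have hr0 := (le_max_left _ _).trans hr
    have h3 : r ≤ R1 + 1 := by
      by_contra hn
      have B := (big M a h1' h2').2 r (by linarith [not_le.mp hn])
      have r1 := B.r1
      exact absurd (lt_of_lt_of_le (by positivity) B.D1) (not_lt.mpr hD)
    obtain ⟨L0, l1, l2, l3⟩ : ∃ L0, el a om m ≤ L0 ∧ L ≤ L0 ∧ L0 - L ≤ c * (om ^ 2 + m ^ 2) :=
      ⟨max L (el a om m), le_max_right _ _, le_max_left _ _, by
        rw [sub_le_iff_le_add]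
        exact max_le (le_add_of_nonneg_left (by positivity)) (by linarith)⟩
    have b1 := O.flux M a h1 h2 om m r ⟨hr0, h3⟩ hD x L0 l1
    have b2 := bb M a (h1'.le.trans d2) (h2'.le.trans d2) r ⟨hr0, h3⟩ om m
    have e : Qf b ch M a r om m x L = Qf b ch M a r om m x L0 + b M a r om m * (L0 - L) := by
      unfold Qf; ring
    have p : 0 ≤ (om ^ 2 + m ^ 2) ^ (N + 1) := by positivity
    have b3 := mul_le_mul_of_nonneg_right (abs_le.mp b2).1 (sub_nonneg.mpr l2)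
    have b4 := mul_le_mul_of_nonneg_left l3 (mul_nonneg hCb.le p)
    have b5 := mul_le_mul_of_nonneg_right c7 (mul_nonneg p (show 0 ≤ om ^ 2 + m ^ 2 by positivity))
    have b6 := mul_le_mul_of_nonneg_right (show c ≤ k by linarith)
      (mul_nonneg p (mul_nonneg (neg_nonneg.mpr hD) (sq_nonneg x)))
    have b7 := mul_nonneg (mul_nonneg hk.le p) ((el_nonneg a om m).trans l1)
    linarith
  · obtain ⟨-, h1'⟩ := lt_min_iff.mp h1
    obtain ⟨-, h2'⟩ := lt_min_iff.mp h2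
    have B := (big M a h1' h2').2 r (by linarith)
    have r1 := B.r1
    obtain ⟨e1, e2, -⟩ := O.far M a r om m (by linarith)
    have s0 : 0 ≤ S om m := le_trans (by positivity) (O.low om m)
    have s1 : S om m ≤ CS * (om ^ 2 + m ^ 2) ^ (N + 1) :=
      (le_abs_self _).trans (bS 0 0 (by simp) (by simp) 0 ⟨le_rfl, le_rfl⟩ om m)
    refine le_of_mul_le_mul_left ?_ (show 0 < 2 * r ^ 3 by positivity)
    rw [far_Qf hw e1 e2 r1]
    calc _ ≤ S om m * (3 * r * (De M a r * x - 2 * K a r om m) ^ 2) :=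
          mul_le_mul_of_nonneg_left (flux_le B (mar hL) _) s0
      _ ≤ CS * (om ^ 2 + m ^ 2) ^ (N + 1) * (4 * r * (De M a r * x - 2 * K a r om m) ^ 2) := by
          gcongr; norm_num
      _ = _ := by field_simp; ring
  · have hr0 := (le_max_left _ _).trans hr
    rcases le_total r (R1 + 1) with h3 | h3
    · refine ⟨mu M0 a0 r om m, k, hk, fun x s L h1 h2 => ?_⟩
      have := O.energy M0 a0 (z0 _ hδ) (z0 _ hδ) om m r ⟨hr0, h3⟩ x s L h1 h2
      rw [hu, one_pow, mul_one] at this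
      exact this
    · obtain ⟨e1, e2, -⟩ := O.far M0 a0 r om m (by linarith)
      obtain ⟨f1, f2⟩ := hf.adm r ((le_max_right _ _).trans hr)
      have s0 := O.low om m
      rw [hu, one_pow, mul_one] at s0
      exact far_En hw ((big M0 a0 (z0 _ hδ1) (z0 _ hδ1)).2 r (by linarith)) hu (hk.trans_le s0) e1 e2
        f1 f2

end Vale.Agent.P354MU
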