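import Vale.Agent.P354XH.Main

/-! The far multiplier be = (r - M) / (2 r^3), g = (2 r^2 - 9 M r) / (2 r^3): polynomial bounds. -/

namespace Vale.Agent.P354MU

open Vale.Agent.P354BF (De rp)
open Vale.Agent.P354XH

variable {M a r om m L x : ℝ}

/-- Far from the hole. -/
structure Big (M a r : ℝ) : Prop where
  M0 : 0 < M
  a2 : a ^ 2 ≤ M ^ 2
  rM : 200 * M ≤ r
  Mr : 1 ≤ M * r

theorem Big.r1 (h : Big M a r) : 1 ≤ r := by
  have := h.M0; have := h.rM; have := h.Mr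
  by_contra hn
  nlinarith

theorem Big.M2 (h : Big M a r) : 40000 * M ^ 2 ≤ r ^ 2 := by
  have := h.M0; have := h.rM
  nlinarith

theorem Big.D1 (h : Big M a r) : 99 / 100 * r ^ 2 ≤ De M a r := by
  have := h.M0; have := h.rM; have := h.r1
  unfold De; nlinarith [sq_nonneg a]

theorem Big.D2 (h : Big M a r) : De M a r ≤ r ^ 2 := by
  have := h.M0; have := h.rM; have := h.a2
  unfold De; nlinarith

theorem el_ge (a om m : ℝ) : m ^ 2 / 2 - a ^ 2 * om ^ 2 ≤ el a om m := by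
  rw [← mul_pow, ← sq_abs m, ← sq_abs (a * om)]
  have := abs_nonneg m; have := abs_nonneg (a * om)
  rcases le_total (|m| - |a * om|) 0 with h | h
  · nlinarith [el_nonneg a om m]
  · nlinarith [le_el h le_rfl, sq_nonneg (|m| - 2 * |a * om|)]

theorem cross {p q u v w : ℝ} (hp : 0 < p) (h : w ^ 2 ≤ 4 * p * q) :
    w * u * v ≤ p * u ^ 2 + q * v ^ 2 := by
  refine le_of_mul_le_mul_left ?_ (show 0 < 4 * p by positivity)
  nlinarith [sq_nonneg (2 * p * u - w * v), mul_le_mul_of_nonneg_right h (sq_nonneg v)]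

/-- 2 r^3 times the part of De B / S without eta. -/
def E (M a r om m L : ℝ) : ℝ := (2 * r ^ 2 - 9 * M * r) * (De M a r * L - K a r om m ^ 2) +
  2 * (r - M) * K a r om m * ka M a r om m

theorem n1_bd (h : Big M a r) :
    M * r ^ 3 ≤ M * r ^ 3 + 6 * M ^ 2 * r ^ 2 + 9 * M * a ^ 2 * r - 2 * a ^ 2 * M ^ 2 ∧
    M * r ^ 3 + 6 * M ^ 2 * r ^ 2 + 9 * M * a ^ 2 * r - 2 * a ^ 2 * M ^ 2 ≤ r ^ 4 := by
  have h0 := h.M0; have h1 := h.a2; have h2 := h.rM; have h4 := h.r1; have h5 := h.M2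
  have b0 := mul_le_mul_of_nonneg_right (show a ^ 2 ≤ r ^ 2 by linarith [sq_nonneg M]) (sq_nonneg M)
  have b1 := mul_le_mul_of_nonneg_right h2 (show 0 ≤ r ^ 3 by positivity)
  have b2 := mul_le_mul_of_nonneg_right h5 (sq_nonneg r)
  have b3 := mul_le_mul_of_nonneg_right (show 40000 * a ^ 2 ≤ r ^ 2 by linarith)
    (show 0 ≤ M * r by positivity)
  have : 0 ≤ M * a ^ 2 * r := by positivity
  have : 0 ≤ a ^ 2 * M ^ 2 := by positivity
  have : 0 ≤ M ^ 2 * r ^ 2 := by positivity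
  have : 0 ≤ r ^ 4 := by positivity
  constructor <;> linarith

theorem n2_bd (h : Big M a r) : 0 ≤ 4 * r ^ 2 - 13 * M * r + 2 * M ^ 2 ∧
    4 * r ^ 2 - 13 * M * r + 2 * M ^ 2 ≤ 4 * r ^ 2 := by
  have h0 := h.M0; have h2 := h.rM; have h4 := h.r1
  constructor <;> nlinarith

theorem G_bd (h : Big M a r) : 9 / 5 * r ^ 4 ≤ (2 * r ^ 2 - 9 * M * r) * De M a r ∧
    (2 * r ^ 2 - 9 * M * r) * De M a r ≤ 2 * r ^ 4 := by
  have h0 := h.M0; have h4 := h.r1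
  have b1 := mul_le_mul_of_nonneg_right h.rM (show 0 ≤ r by linarith)
  have b2 : 0 ≤ M * r := by positivity
  have b3 := sq_nonneg r
  have c1 := mul_le_mul (show 19 / 10 * r ^ 2 ≤ 2 * r ^ 2 - 9 * M * r by linarith) h.D1
    (by linarith) (by linarith)
  have c2 := mul_le_mul (show 2 * r ^ 2 - 9 * M * r ≤ 2 * r ^ 2 by linarith) h.D2
    (by linarith [h.D1]) (by linarith)
  have : 0 ≤ r ^ 4 := by positivity
  constructor <;> linarith

theorem E_ge (h : Big M a r) (hL : el a om m - (om ^ 2 + m ^ 2) / 16 ≤ L) :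
    (r ^ 4 * (L + (om ^ 2 + m ^ 2) / 16 + m ^ 2) + M * r ^ 5 * om ^ 2) / 5 ≤ E M a r om m L := by
  have h0 := h.M0; have h1 := h.a2; have h2 := h.rM; have h3 := h.Mr; have h4 := h.r1
  have h5 := h.M2
  have a0 := sq_nonneg a
  have r0 : 0 < r := by linarith
  obtain ⟨p1, p2⟩ := n1_bd h
  obtain ⟨p3, p4⟩ := n2_bd h
  obtain ⟨g1, g2⟩ := G_bd h
  have e : E M a r om m L = (2 * r ^ 2 - 9 * M * r) * De M a r * L + (r ^ 2 + a ^ 2) *
      (M * r ^ 3 + 6 * M ^ 2 * r ^ 2 + 9 * M * a ^ 2 * r - 2 * a ^ 2 * M ^ 2) * om ^ 2 -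
      (a * ((M * r ^ 3 + 6 * M ^ 2 * r ^ 2 + 9 * M * a ^ 2 * r - 2 * a ^ 2 * M ^ 2) -
        (r ^ 2 + a ^ 2) * (4 * r ^ 2 - 13 * M * r + 2 * M ^ 2))) * om * m -
      a ^ 2 * (4 * r ^ 2 - 13 * M * r + 2 * M ^ 2) * m ^ 2 := by
    unfold E K ka; ring
  rw [e]
  clear e
  generalize M * r ^ 3 + 6 * M ^ 2 * r ^ 2 + 9 * M * a ^ 2 * r - 2 * a ^ 2 * M ^ 2 = n1 at p1 p2
  generalize 4 * r ^ 2 - 13 * M * r + 2 * M ^ 2 = n2 at p3 p4
  generalize (2 * r ^ 2 - 9 * M * r) * De M a r = G at g1 g2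
  have p5 := mul_le_mul (show r ^ 2 + a ^ 2 ≤ 5 / 4 * r ^ 2 by linarith [sq_nonneg r]) p4 p3
    (by positivity)
  have p6 : 0 ≤ (r ^ 2 + a ^ 2) * n2 := by positivity
  have p7 : 0 ≤ M * r ^ 3 := by positivity
  have q1 : (a * (n1 - (r ^ 2 + a ^ 2) * n2)) * om * m ≤ 50 * M ^ 2 * r ^ 4 * om ^ 2 +
      r ^ 4 / 8 * m ^ 2 := by
    refine cross (by positivity) ?_
    have : (n1 - (r ^ 2 + a ^ 2) * n2) ^ 2 ≤ (5 * r ^ 4) ^ 2 :=
      sq_le_sq' (by linarith) (by linarith [pow_pos r0 4])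
    have := mul_le_mul h1 this (sq_nonneg _) (sq_nonneg _)
    linarith
  obtain ⟨Y, rfl⟩ : ∃ Y, L = Y - (om ^ 2 + m ^ 2) / 16 := ⟨L + (om ^ 2 + m ^ 2) / 16, by ring⟩
  have y0 : 0 ≤ Y := by linarith [el_nonneg a om m]
  have y1 : m ^ 2 / 2 - M ^ 2 * om ^ 2 ≤ Y := by
    linarith [el_ge a om m, mul_le_mul_of_nonneg_right h1 (sq_nonneg om)]
  have q2 := mul_le_mul_of_nonneg_right g1 y0
  have q3 := mul_le_mul_of_nonneg_right g2 (show 0 ≤ (om ^ 2 + m ^ 2) / 16 by positivity)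
  have q4 := mul_le_mul_of_nonneg_left y1 (pow_pos r0 4).le
  have q5 := mul_le_mul_of_nonneg_right (mul_le_mul (show r ^ 2 ≤ r ^ 2 + a ^ 2 by linarith) p1 p7
    (by positivity)) (sq_nonneg om)
  have q6 := mul_le_mul_of_nonneg_right (mul_le_mul (show a ^ 2 ≤ r ^ 2 / 40000 by linarith) p4 p3
    (by positivity)) (sq_nonneg m)
  have q11 : 0 ≤ r ^ 4 * om ^ 2 := by positivity
  have q7 := mul_le_mul_of_nonneg_right (mul_le_mul_of_nonneg_left h2 h0.le) q11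
  have q8 := mul_le_mul_of_nonneg_right h3 q11
  have q9 : 0 ≤ r ^ 4 * Y := by positivity
  have q10 : 0 ≤ r ^ 4 * m ^ 2 := by positivity
  linarith

/-- 2 r^4 times the coefficient of eta^2. -/
def cA (M a r : ℝ) : ℝ := M * r ^ 2 - (10 * M ^ 2 + 4 * a ^ 2) * r + 6 * M * a ^ 2

theorem cA_ge (h : Big M a r) : M * r ^ 2 / 2 ≤ cA M a r := by
  have h0 := h.M0; have h1 := h.a2; have h2 := h.rM; have h4 := h.r1
  have : 0 ≤ M * a ^ 2 := by positivity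
  have : a ^ 2 * r ≤ M ^ 2 * r := by gcongr
  have : M * (200 * M) * r ≤ M * r * r := by gcongr
  have : 0 ≤ M ^ 2 * r := by positivity
  unfold cA; linarith

theorem K_sq (h : Big M a r) : K a r om m ^ 2 ≤ 21 / 10 * r ^ 4 * om ^ 2 + 2 * M ^ 2 * m ^ 2 := by
  have h1 := h.a2; have h5 := h.M2
  have b1 : (r ^ 2 + a ^ 2) ^ 2 * om ^ 2 ≤ (101 / 100 * r ^ 2) ^ 2 * om ^ 2 := by
    gcongr; linarith [sq_nonneg r]
  have b2 : a ^ 2 * m ^ 2 ≤ M ^ 2 * m ^ 2 := by gcongr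
  have : 0 ≤ r ^ 4 * om ^ 2 := by positivity
  unfold K; linarith [sq_nonneg (om * (r ^ 2 + a ^ 2) + a * m)]

theorem ka_sq (h : Big M a r) : ka M a r om m ^ 2 ≤ 2 * r ^ 6 * om ^ 2 + 2 * M ^ 2 * r ^ 2 * m ^ 2 := by
  have h0 := h.M0; have h1 := h.a2; have h2 := h.rM; have h4 := h.r1
  have b0 : Pc M a r ^ 2 ≤ (r ^ 3) ^ 2 := by
    have c1 : a ^ 2 * r ≤ M ^ 2 * r := by gcongr
    have c2 : a ^ 2 * M ≤ M ^ 2 * r := by gcongr; linarith
    have c3 : M * M * r ≤ M * r * r := by gcongr; linarith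
    have c4 : M * r ^ 2 ≤ r / 200 * r ^ 2 := by gcongr; linarith
    have : 0 ≤ a ^ 2 * r := by positivity
    have : 0 ≤ a ^ 2 * M := by positivity
    have : 0 ≤ M * r ^ 2 := by positivity
    have : 0 ≤ r ^ 3 := by positivity
    unfold Pc
    exact sq_le_sq' (by linarith) (by linarith)
  have b1 := mul_le_mul_of_nonneg_right b0 (sq_nonneg om)
  have b2 : a ^ 2 * (r - M) ^ 2 * m ^ 2 ≤ M ^ 2 * r ^ 2 * m ^ 2 := by gcongr <;> linarith
  have e : ka M a r om m = om * Pc M a r + a * m * (r - M) := rfl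
  rw [e]; linarith [sq_nonneg (om * Pc M a r - a * m * (r - M))]

/-- 2 r^3 (be K - om). -/
def U (M a r om m : ℝ) : ℝ := (r - M) * K a r om m - 2 * r ^ 3 * om

theorem KU_le (h : Big M a r) :
    K a r om m * U M a r om m ≤ -(99 / 100 * r ^ 5 * om ^ 2) + 2 * M ^ 2 * r * m ^ 2 ∧
    U M a r om m ^ 2 ≤ 21 / 10 * r ^ 6 * om ^ 2 + 2 * M ^ 2 * r ^ 2 * m ^ 2 := by
  have h0 := h.M0; have h1 := h.a2; have h2 := h.rM; have h4 := h.r1; have h5 := h.M2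
  have r0 : 0 < r := by linarith
  obtain ⟨d, e1⟩ : ∃ d, d = M * r ^ 2 - a ^ 2 * r + M * a ^ 2 := ⟨_, rfl⟩
  have c1 : a ^ 2 * r ≤ M ^ 2 * r := by gcongr
  have c3 : M * M * r ≤ M * r * r := by gcongr; linarith
  have c4 : M * r ^ 2 ≤ r / 200 * r ^ 2 := by gcongr; linarith
  have c5 : M * a ^ 2 ≤ M * r ^ 2 := mul_le_mul_of_nonneg_left (by linarith [sq_nonneg M]) h0.le
  have c6 : 0 ≤ a ^ 2 * r := by positivity
  have c7 : 0 ≤ M * a ^ 2 := by positivity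
  have d0 : 0 ≤ d := by linarith
  have d1 : d ≤ r ^ 3 / 100 := by linarith
  have eU : U M a r om m = -(om * (r ^ 3 + d)) - (r - M) * (a * m) := by
    rw [e1]; unfold U K; ring
  have b2 : a ^ 2 * (r - M) ^ 2 * m ^ 2 ≤ M ^ 2 * r ^ 2 * m ^ 2 := by gcongr <;> linarith
  constructor
  · have e : K a r om m * U M a r om m = -((r ^ 2 + a ^ 2) * (r ^ 3 + d) * om ^ 2) +
        2 * a * d * om * m + a ^ 2 * (r - M) * m ^ 2 := by rw [e1]; unfold U K; ring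
    have q1 : 2 * a * d * om * m ≤ r ^ 5 / 100 * om ^ 2 + M ^ 2 * r * m ^ 2 := by
      refine cross (by positivity) ?_
      calc _ = 4 * a ^ 2 * d ^ 2 := by ring
        _ ≤ 4 * M ^ 2 * (r ^ 3 / 10) ^ 2 := by gcongr; linarith [pow_pos r0 3]
        _ = _ := by ring
    have q2 : r ^ 2 * r ^ 3 * om ^ 2 ≤ (r ^ 2 + a ^ 2) * (r ^ 3 + d) * om ^ 2 := by
      gcongr <;> linarith [sq_nonneg a]
    have q3 : a ^ 2 * (r - M) * m ^ 2 ≤ M ^ 2 * r * m ^ 2 := by gcongr <;> linarith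
    linarith
  · have q1 : (r ^ 3 + d) ^ 2 * om ^ 2 ≤ (101 / 100 * r ^ 3) ^ 2 * om ^ 2 := by gcongr; linarith
    have : 0 ≤ r ^ 6 * om ^ 2 := by positivity
    rw [eU]; linarith [sq_nonneg (om * (r ^ 3 + d) - (r - M) * (a * m))]

theorem timelike (h : Big M a r) (hu : om ^ 2 + m ^ 2 = 1)
    (hK : De M a r * el a om m ≤ K a r om m ^ 2) : K a r om m * U M a r om m < 0 := by
  have h0 := h.M0; have h1 := h.a2; have h4 := h.r1; have h5 := h.M2
  have d1 := h.D1; have d2 := h.D2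
  have r0 : 0 < r := by linarith
  have b1 := mul_le_mul_of_nonneg_left (el_ge a om m) (show 0 ≤ De M a r by nlinarith)
  have b2 : De M a r * (a ^ 2 * om ^ 2) ≤ r ^ 2 * (r ^ 2 / 40000 * om ^ 2) := by gcongr; linarith
  have b3 := mul_le_mul_of_nonneg_right d1 (sq_nonneg m)
  have b4 := mul_le_mul_of_nonneg_right h5 (sq_nonneg m)
  have b5 : m ^ 2 ≤ 5 * r ^ 2 * om ^ 2 := by
    refine le_of_mul_le_mul_left ?_ (pow_pos r0 2)
    have : 0 ≤ r ^ 4 * om ^ 2 := by positivity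
    have : 0 ≤ r ^ 2 * m ^ 2 := by positivity
    linarith [K_sq (om := om) (m := m) h]
  have o0 : 0 < om ^ 2 := by
    rcases (sq_nonneg om).eq_or_lt with e | e
    · rw [← e] at b5 hu; linarith
    · exact e
  have b6 : M ^ 2 * r * m ^ 2 ≤ r ^ 2 / 40000 * r * (5 * r ^ 2 * om ^ 2) := by gcongr; linarith
  have : 0 < r ^ 5 * om ^ 2 := by positivity
  linarith [(KU_le (om := om) (m := m) h).1]

theorem flux_le (h : Big M a r) (hL : el a om m - (om ^ 2 + m ^ 2) / 16 ≤ L) (z : ℝ) :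
    (r - M) * z ^ 2 + 2 * U M a r om m * z + 2 * (K a r om m * U M a r om m) -
      (r - M) * De M a r * L ≤ 3 * r * z ^ 2 := by
  have h0 := h.M0; have h1 := h.a2; have h2 := h.rM; have h4 := h.r1; have h5 := h.M2
  have d1 := h.D1; have d2 := h.D2
  have r0 : 0 < r := by linarith
  obtain ⟨k1, k2⟩ := KU_le (om := om) (m := m) h
  have q1 : 2 * U M a r om m * z ≤ 2 * r * z ^ 2 +
      (21 / 20 * r ^ 5 * om ^ 2 + M ^ 2 * r * m ^ 2) := by
    have := cross (p := 2 * r) (q := 21 / 20 * r ^ 5 * om ^ 2 + M ^ 2 * r * m ^ 2) (u := z) (v := 1)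
      (w := 2 * U M a r om m) (by positivity) (by linarith)
    linarith
  obtain ⟨G, e3⟩ : ∃ G, G = (r - M) * De M a r := ⟨_, rfl⟩
  have g1 : 9 / 10 * r ^ 3 ≤ G := by
    calc _ ≤ (199 / 200 * r) * (99 / 100 * r ^ 2) := by nlinarith [pow_pos r0 3]
      _ ≤ _ := by rw [e3]; gcongr <;> linarith
  have g2 : G ≤ r ^ 3 := by
    calc G ≤ r * r ^ 2 := by rw [e3]; gcongr <;> nlinarith
      _ = _ := by ring
  have y1 : 7 / 16 * m ^ 2 - (r ^ 2 / 40000 + r ^ 2 / 16) * om ^ 2 ≤ L := by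
    have : a ^ 2 * om ^ 2 ≤ r ^ 2 / 40000 * om ^ 2 := by gcongr; linarith
    have : 1 * om ^ 2 ≤ r ^ 2 * om ^ 2 := by gcongr; nlinarith
    linarith [el_ge a om m]
  have q2 := mul_le_mul_of_nonneg_left y1 (show 0 ≤ G by linarith [pow_pos r0 3])
  have q3 := mul_le_mul_of_nonneg_right g1 (sq_nonneg m)
  have q4 := mul_le_mul_of_nonneg_right g2 (show 0 ≤ r ^ 2 * om ^ 2 by positivity)
  have q5 := mul_le_mul_of_nonneg_right h5 (show 0 ≤ r * m ^ 2 by positivity)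
  have : 0 ≤ M * z ^ 2 := by positivity
  have : 0 ≤ r ^ 5 * om ^ 2 := by positivity
  have : 0 ≤ r ^ 3 * m ^ 2 := by positivity
  rw [← e3]
  linarith

end Vale.Agent.P354MU
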