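import Vale.Agent.P354MU.Far

/-! The far multiplier: the witness and its bulk, flux and energy. -/

open Set Filter Topology
open scoped ContDiff

namespace Vale.Agent.P354MU

open Vale.Agent.P354BF (De rp)
open Vale.Agent.P354XH

variable {M a r om m L x t : ℝ}

theorem far1 (h : Big M a r) (hL : el a om m - (om ^ 2 + m ^ 2) / 16 ≤ L) (t0 : 0 ≤ t) (t1 : t ≤ 1)
    (t2 : 20 * t ≤ M) (y : ℝ) : 2 * r ^ 4 * De M a r * (t * (y ^ 2 / r ^ 4 + ka M a r om m ^ 2 / r ^ 6)) ≤
      cA M a r * y ^ 2 + r * E M a r om m L := by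
  have h0 := h.M0; have h4 := h.r1
  have r0 : 0 < r := by linarith
  have b1 := mul_le_mul_of_nonneg_left (E_ge h hL) r0.le
  have b2 := mul_le_mul_of_nonneg_right (cA_ge h) (sq_nonneg y)
  have b3 : 2 * r ^ 4 * De M a r * (t * (y ^ 2 / r ^ 4 + ka M a r om m ^ 2 / r ^ 6)) ≤
      2 * t * (r ^ 2 * y ^ 2 + ka M a r om m ^ 2) := by
    calc _ ≤ 2 * r ^ 4 * r ^ 2 * (t * (y ^ 2 / r ^ 4 + ka M a r om m ^ 2 / r ^ 6)) := by
          gcongr; exact h.D2
      _ = _ := by field_simp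
  have b4 := mul_le_mul_of_nonneg_left (ka_sq (om := om) (m := m) h) t0
  have b5 := mul_le_mul_of_nonneg_right t2 (show 0 ≤ r ^ 2 * y ^ 2 by positivity)
  have b6 := mul_le_mul_of_nonneg_right t2 (show 0 ≤ r ^ 6 * om ^ 2 by positivity)
  have b7 := mul_le_mul_of_nonneg_right t1 (show 0 ≤ M ^ 2 * r ^ 2 * m ^ 2 by positivity)
  have b8 := mul_le_mul_of_nonneg_right h.M2 (show 0 ≤ r ^ 2 * m ^ 2 by positivity)
  have b9 := mul_le_mul_of_nonneg_right h4 (show 0 ≤ r ^ 4 * m ^ 2 by positivity)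
  have y0 : 0 ≤ r ^ 5 * (L + (om ^ 2 + m ^ 2) / 16) :=
    mul_nonneg (by positivity) (by linarith [el_nonneg a om m])
  have : 0 ≤ M * (r ^ 2 * y ^ 2) := by positivity
  have : 0 ≤ r ^ 4 * m ^ 2 := by positivity
  linarith

theorem far2 (h : Big M a r) (hL : el a om m - (om ^ 2 + m ^ 2) / 16 ≤ L) (x : ℝ) :
    2 * r ^ 4 * De M a r * (1 / 100 * ((x ^ 2 + (om ^ 2 + m ^ 2) + L) / r)) ≤
      cA M a r * (De M a r * x - K a r om m) ^ 2 + r * E M a r om m L := by
  have h0 := h.M0; have h4 := h.r1; have d1 := h.D1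
  have r0 : 0 < r := by linarith
  have D0 : 0 ≤ De M a r := by linarith [sq_nonneg r]
  have b1 := mul_le_mul_of_nonneg_left (E_ge h hL) r0.le
  have b2 := mul_le_mul_of_nonneg_right (cA_ge h) (sq_nonneg (De M a r * x - K a r om m))
  have y0 : 0 ≤ L + (om ^ 2 + m ^ 2) / 16 := by linarith [el_nonneg a om m]
  have b3 : r ^ 2 * (De M a r * x ^ 2) ≤ 4 * (De M a r * x - K a r om m) ^ 2 +
      4 * (21 / 10 * r ^ 4 * om ^ 2 + 2 * M ^ 2 * m ^ 2) := by
    have := mul_le_mul_of_nonneg_right (show r ^ 2 ≤ 2 * De M a r by linarith)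
      (show 0 ≤ De M a r * x ^ 2 by positivity)
    linarith [sq_nonneg (De M a r * x - 2 * K a r om m), K_sq (om := om) (m := m) h]
  have b4 := mul_le_mul_of_nonneg_left b3 r0.le
  have b5 := mul_le_mul_of_nonneg_left (mul_le_mul h.D2
    (show om ^ 2 + m ^ 2 + L ≤ om ^ 2 + m ^ 2 + (L + (om ^ 2 + m ^ 2) / 16) by
      linarith [sq_nonneg om, sq_nonneg m]) (by linarith [sq_nonneg om, sq_nonneg m])
    (sq_nonneg r)) (pow_pos r0 3).le
  have b6 := mul_le_mul_of_nonneg_right h.Mr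
    (show 0 ≤ r * (De M a r * x - K a r om m) ^ 2 by positivity)
  have b7 := mul_le_mul_of_nonneg_right h.Mr (show 0 ≤ r ^ 5 * om ^ 2 by positivity)
  have b8 := mul_le_mul_of_nonneg_right h.M2 (show 0 ≤ r * m ^ 2 by positivity)
  have b9 := mul_le_mul_of_nonneg_right (one_le_pow₀ (n := 2) h4)
    (show 0 ≤ r ^ 3 * m ^ 2 by positivity)
  have := mul_nonneg (pow_pos r0 5).le y0
  have : 0 ≤ r * (De M a r * x - K a r om m) ^ 2 := by positivity
  have : 0 ≤ r ^ 5 * om ^ 2 := by positivity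
  have : 0 ≤ r ^ 3 * m ^ 2 := by positivity
  have e : 2 * r ^ 4 * De M a r * (1 / 100 * ((x ^ 2 + (om ^ 2 + m ^ 2) + L) / r)) =
      1 / 50 * (r ^ 3 * De M a r * (x ^ 2 + (om ^ 2 + m ^ 2) + L)) := by field_simp; ring
  rw [e]
  linarith

/-- The witness. -/
def be (w : ℝ → ℝ) (z : ℝ × ℝ × ℝ) : ℝ := (z.2.2 - z.1) * w z.2.2
def gF (w : ℝ → ℝ) (z : ℝ × ℝ × ℝ) : ℝ := (2 * z.2.2 ^ 2 - 9 * z.1 * z.2.2) * w z.2.2

theorem ex_w : ∃ w : ℝ → ℝ, ContDiff ℝ ∞ w ∧ ∀ r, 1 / 2 ≤ r → w r = (2 * r ^ 3)⁻¹ :=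
  globalize (y := 0) (by norm_num) (ContDiffOn.inv (by fun_prop) fun r hr => by
    have : 0 < r := hr
    positivity)

variable {w : ℝ → ℝ}

theorem hd_be (hw : ∀ r, 1 / 2 ≤ r → w r = (2 * r ^ 3)⁻¹) (hr : 1 ≤ r) :
    HasDerivAt (fun s => be w (M, a, s)) ((3 * M - 2 * r) / (2 * r ^ 4)) r := by
  have r0 : 0 < r := by linarith
  have h1 : HasDerivAt (fun s : ℝ => (s - M) / (2 * s ^ 3)) ((3 * M - 2 * r) / (2 * r ^ 4)) r := by
    refine (((hasDerivAt_id r).sub_const M).div (((hasDerivAt_id r).pow 3).const_mul 2)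
      (by simp only [Pi.pow_apply, id]; positivity)).congr_deriv ?_
    simp only [Pi.pow_apply, id]
    field_simp
    ring
  refine h1.congr_of_eventuallyEq ?_
  filter_upwards [Ioi_mem_nhds (show 1 / 2 < r by linarith)] with s hs
  simp only [be, hw s hs.le, div_eq_mul_inv]

theorem far_ok {f : ℝ × ℝ × ℝ → ℝ} {R1 R2 : ℝ} (sw : ContDiff ℝ ∞ w)
    (hw : ∀ r, 1 / 2 ≤ r → w r = (2 * r ^ 3)⁻¹) (hf : Continuous f) (h1 : 10 * M + 3 ≤ R1)
    (h2 : R1 ≤ R2) (h3 : ∀ r, rp M a ≤ r → 0 < f (M, a, r) ∧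
      a ^ 2 < f (M, a, r) * (2 * (r ^ 2 + a ^ 2) - De M a r * f (M, a, r)))
    (h4 : ∀ r, R1 - 2 ≤ r → Big M a r) : Far M a (be w) (gF w) f R1 R2 := by
  refine ⟨ContDiff.mul (by fun_prop) (sr sw), ContDiff.mul (by fun_prop) (sr sw), hf, h1, h2,
    fun r hr => h3 r hr.1, fun r hr => ?_, fun r hr om m hu => ?_⟩
  · have B := h4 r hr.1
    have := B.M0; have := B.rM; have r1 := B.r1
    have r0 : 0 < r := by linarith
    rw [(hd_be hw r1).deriv]
    simp only [be, gF, hw r (by linarith)]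
    refine ⟨mul_pos (by linarith) (by positivity), mul_pos (by nlinarith) (by positivity), ?_⟩
    refine lt_of_lt_of_eq (div_pos (lt_of_lt_of_le (by positivity) (cA_ge B))
      (show 0 < 2 * r ^ 4 by positivity)) ?_
    unfold cA De; field_simp; ring
  · have B := h4 r hr.1
    have := B.M0; have r1 := B.r1
    have r0 : 0 < r := by linarith
    simp only [be, gF, hw r (by linarith)]
    constructor
    · have b1 := E_ge (L := el a om m) B (show el a om m - (om ^ 2 + m ^ 2) / 16 ≤ _ by linarith)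
      have b2 : 0 < el a om m + (om ^ 2 + m ^ 2) / 16 + m ^ 2 := by
        linarith [el_nonneg a om m, sq_nonneg m]
      refine lt_of_lt_of_eq (div_pos (lt_of_lt_of_le (by positivity) b1)
        (show 0 < 2 * r ^ 3 by positivity)) ?_
      unfold E; field_simp
    · intro hK
      have b1 := div_neg_of_neg_of_pos (timelike B hu hK) (show 0 < 2 * r ^ 3 by positivity)
      have e : K a r om m * U M a r om m / (2 * r ^ 3) =
          (r - M) * (2 * r ^ 3)⁻¹ * K a r om m ^ 2 - om * K a r om m := by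
        unfold U; field_simp
      linarith

variable {b ch h : Fm} {S R1 : ℝ}

theorem far_Bk (hw : ∀ r, 1 / 2 ≤ r → w r = (2 * r ^ 3)⁻¹)
    (far : ∀ r, R1 ≤ r → b M a r om m = S * (De M a r * be w (M, a, r)) ∧
      ch M a r om m = S * (be w (M, a, r) * K a r om m + om) ∧
      h M a r om m = S * (gF w (M, a, r) + deriv (fun s => De M a s * be w (M, a, s)) r))
    (hr : R1 < r) (r1 : 1 ≤ r) (x L : ℝ) : 2 * r ^ 4 * De M a r * Bk b ch h M a r om m x L =
      S * (cA M a r * (De M a r * x - K a r om m) ^ 2 + r * E M a r om m L) := by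
  have r0 : 0 < r := by linarith
  have d1 := (hdDe M a r).mul (hd_be (M := M) (a := a) hw r1)
  have d2 := ((hd_be (M := M) (a := a) hw r1).mul (hdK a om m r)).add_const om
  have e1 : dr b M a r om m = _ := (Filter.EventuallyEq.deriv_eq (by
    filter_upwards [Ioi_mem_nhds hr] with s hs using (far s hs.le).1)).trans (d1.const_mul S).deriv
  have e2 : dr ch M a r om m = _ := (Filter.EventuallyEq.deriv_eq (by
    filter_upwards [Ioi_mem_nhds hr] with s hs using (far s hs.le).2.1)).trans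
      (d2.const_mul S).deriv
  have e3 : deriv (fun s => De M a s * be w (M, a, s)) r = _ := d1.deriv
  obtain ⟨e4, -, e5⟩ := far r hr.le
  simp only [Bk, e1, e2, e4, e5, e3]
  simp only [be, gF, hw r (by linarith)]
  unfold cA E De K ka
  field_simp
  ring

theorem far_Qf (hw : ∀ r, 1 / 2 ≤ r → w r = (2 * r ^ 3)⁻¹)
    (e1 : b M a r om m = S * (De M a r * be w (M, a, r)))
    (e2 : ch M a r om m = S * (be w (M, a, r) * K a r om m + om)) (r1 : 1 ≤ r) (x L : ℝ) :
    2 * r ^ 3 * Qf b ch M a r om m x L = S * ((r - M) * (De M a r * x - 2 * K a r om m) ^ 2 +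
      2 * U M a r om m * (De M a r * x - 2 * K a r om m) + 2 * (K a r om m * U M a r om m) -
      (r - M) * De M a r * L) := by
  have r0 : 0 < r := by linarith
  simp only [Qf, e1, e2, be, hw r (by linarith), U]
  field_simp
  ring

theorem far_En {f : ℝ × ℝ × ℝ → ℝ} (hw : ∀ r, 1 / 2 ≤ r → w r = (2 * r ^ 3)⁻¹) (B : Big M a r)
    (hu : om ^ 2 + m ^ 2 = 1) (hS : 0 < S) (e1 : b M a r om m = S * (De M a r * be w (M, a, r)))
    (e2 : ch M a r om m = S * (be w (M, a, r) * K a r om m + om)) (f1 : 0 < f (M, a, r))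
    (f2 : a ^ 2 < f (M, a, r) * (2 * (r ^ 2 + a ^ 2) - De M a r * f (M, a, r))) :
    ∃ mu c1 : ℝ, 0 < c1 ∧ ∀ x s L, el a om m ≤ L → s ^ 2 ≤ L →
      c1 * (x ^ 2 + 1 + L) ≤ En f b ch (fun _ _ _ _ _ => mu) M a r om m x s L := by
  have r1 := B.r1
  have r0 : 0 < r := by linarith
  have hD : 0 < De M a r := lt_of_lt_of_le (by positivity) B.D1
  obtain ⟨μ, c, hc, P⟩ : ∃ μ c, 0 < c ∧ PEv c (De M a r) (K a r om m) (r ^ 2 + a ^ 2) (f (M, a, r))
      a (b M a r om m) (ch M a r om m) μ (el a om m) := by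
    rcases lt_or_ge (K a r om m ^ 2) (De M a r * el a om m) with h3 | h3
    · exact ene_forb hD (el_nonneg _ _ _) h3
    · have b1 := timelike B hu h3
      have hK : K a r om m ≠ 0 := fun e => by rw [e, zero_mul] at b1; exact lt_irrefl _ b1
      have b2 : 0 < (r - M) * K a r om m ^ 2 := mul_pos (by linarith [B.rM, B.M0]) (by positivity)
      refine ene_time hK f1 f2 ?_ ?_
      · refine lt_of_lt_of_eq (div_pos (mul_pos hS (show 0 < 2 * ((r - M) * K a r om m ^ 2) -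
          K a r om m * U M a r om m by linarith)) (show 0 < 2 * r ^ 3 by positivity)) ?_
        simp only [e2, be, hw r (by linarith), U]
        field_simp
        ring
      · refine lt_of_lt_of_eq (div_pos (mul_pos (mul_pos hS hD) (neg_pos.mpr b1))
          (show 0 < 2 * r ^ 3 by positivity)) ?_
        simp only [e1, e2, be, hw r (by linarith), U]
        field_simp
        ring
  refine ⟨μ, c, hc, fun x s L h1 h2 => (P x s L h1 h2).trans (le_of_eq ?_)⟩
  simp only [En, qf]; ring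

end Vale.Agent.P354MU
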